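import Mathlib
import Vale.Agent.P079.Main

/-!
Kirk's problem: every reflexive real Banach space has the fixed point property for nonexpansive
maps.
-/

namespace Vale.Agent.Results.P079.KirkReflexiveFPP

/-- Every nonexpansive self map of a nonempty closed bounded convex subset of a reflexive real
Banach space has a fixed point. -/
theorem result :
    ∀ (X : Type*) [NormedAddCommGroup X] [NormedSpace ℝ X] [CompleteSpace X],
      Function.Surjective (NormedSpace.inclusionInDoubleDual ℝ X) →
      ∀ C : Set X, C.Nonempty → IsClosed C → Bornology.IsBounded C → Convex ℝ C →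
      ∀ T : C → C, (∀ a b : C, ‖(T a : X) - (T b : X)‖ ≤ ‖(a : X) - (b : X)‖) →
        ∃ a : C, T a = a := by
  intro X _ _ _ hR C hne hcl hbd hcv T hT
  classical
  obtain ⟨c, hc⟩ := hne
  let T' : X → X := fun a => if ha : a ∈ C then (T ⟨a, ha⟩ : X) else c
  obtain ⟨a, ha, hfix⟩ := Vale.Agent.P079.exists_fixed hR ⟨c, hc⟩ hcl hbd hcv T'
    (fun a ha => by
      simp only [T', dif_pos ha]
      exact (T ⟨a, ha⟩).2)
    (fun a ha b hb => by
      simp only [T', dif_pos ha, dif_pos hb]
      exact hT ⟨a, ha⟩ ⟨b, hb⟩)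
  simp only [T', dif_pos ha] at hfix
  exact ⟨⟨a, ha⟩, Subtype.ext hfix⟩

end Vale.Agent.Results.P079.KirkReflexiveFPP
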